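import Vale.Agent.P038.H83.Square

/-!
# P038 (H83): the abstract four-set inequality (A*)
-/

namespace Vale.Agent.P038.H83

open Finset

universe u

variable {V : Type u} [Fintype V] [DecidableEq V]

/-- Injectivity along one coordinate: `al → de`. -/
theorem inj_step (N : V → Finset V) (A : Finset V) (Gr er : V → Finset V) (der : Finset V)
    (M : V → Prop)
    -- for the rows `a` with `M a` the set `Gr a` matches into `er a`
    (hrow : ∀ a, M a → ∀ S' ⊆ Gr a,
      S'.card ≤ ((er a).filter fun b' => ∃ b ∈ S', b' ∈ N b).card)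
    (hal : ∀ b ∈ A, ∃ a, M a ∧ b ∈ Gr a)
    (hcross : ∀ a b b', M a → b' ∈ N b → b' ∈ er a → b ∈ A → b ∈ Gr a ∧ b' ∈ der)
    (x : V → KK V) (hx : ∀ b, b ∉ A → x b = 0)
    (h0 : ∀ b' ∈ der, ∑ b, PP N b' b * x b = 0) : ∀ b, x b = 0 := by
  classical
  intro b0
  by_cases hb0 : b0 ∈ A
  · obtain ⟨a, ha, hab⟩ := hal b0 hb0
    have h1 := generic_inj N (Gr a) (er a) (hrow a ha)
      (fun b => if b ∈ Gr a then x b else 0) (fun s hs => if_neg hs) (by
        intro b' hb'
        by_cases hd : b' ∈ der
        · refine (Finset.sum_congr rfl fun b _ => ?_).trans (h0 b' hd)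
          by_cases hb : b ∈ Gr a
          · simp only [if_pos hb]
          · simp only [if_neg hb, mul_zero]
            symm
            by_cases hP : PP N b' b = 0
            · rw [hP, zero_mul]
            · by_cases hbA : b ∈ A
              · exact absurd (hcross a b b' ha (PP_ne hP) hb' hbA).1 hb
              · rw [hx b hbA, mul_zero]
        · refine Finset.sum_eq_zero fun b _ => ?_
          by_cases hP : PP N b' b = 0
          · rw [hP, zero_mul]
          · by_cases hbA : b ∈ A
            · exact absurd (hcross a b b' ha (PP_ne hP) hb' hbA).2 hd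
            · simp only [hx b hbA, ite_self, mul_zero])
    have h2 := h1 b0
    simpa only [if_pos hab] using h2
  · exact hx b0 hb0

/-- The four-set inequality (A*). -/
theorem four_term (N : V → Finset V) (G e al de : Finset (V × V))
    (hrow : ∀ a, ∀ S' : Finset V, (∀ b ∈ S', (a, b) ∈ G) →
      S'.card ≤ (univ.filter fun b' => (a, b') ∈ e ∧ ∃ b ∈ S', b' ∈ N b).card)
    (hcol : ∀ b, ∀ S' : Finset V, (∀ a ∈ S', (a, b) ∈ G) →
      S'.card ≤ (univ.filter fun a' => (a', b) ∈ al ∧ ∃ a ∈ S', a' ∈ N a).card)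
    (he : ∀ a b', (a, b') ∈ e → ∃ b, b' ∈ N b ∧ (a, b) ∈ G)
    (hal : ∀ a' b, (a', b) ∈ al → ∃ a, a' ∈ N a ∧ (a, b) ∈ G)
    (hcross : ∀ a a' b b', a' ∈ N a → b' ∈ N b → (a, b') ∈ e → (a', b) ∈ al →
      (a, b) ∈ G ∧ (a', b') ∈ de) :
    e.card + al.card ≤ G.card + de.card := by
  classical
  let Mφ : Matrix de al (KK V) := fun d p => if d.1.1 = p.1.1 then PP N d.1.2 p.1.2 else 0
  let Mψ : Matrix e de (KK V) := fun q d => if q.1.2 = d.1.2 then PP N d.1.1 q.1.1 else 0
  let Mχ : Matrix G al (KK V) := fun g p => if g.1.2 = p.1.2 then PP N p.1.1 g.1.1 else 0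
  let Mω : Matrix e G (KK V) := fun q g => if q.1.1 = g.1.1 then PP N q.1.2 g.1.2 else 0
  have key := card_le_of_square Mφ Mψ Mχ Mω ?_ ?_ ?_
  · simpa only [Fintype.card_coe] using key
  · -- injectivity of `Mφ`
    intro x hx
    funext p0
    obtain ⟨⟨a', b0⟩, hp0⟩ := p0
    let X : V → KK V := fun b => if h : (a', b) ∈ al then x ⟨(a', b), h⟩ else 0
    have h1 := inj_step N (univ.filter fun b => (a', b) ∈ al) (fun a => univ.filter fun b => (a, b) ∈ G)
      (fun a => univ.filter fun b' => (a, b') ∈ e) (univ.filter fun b' => (a', b') ∈ de)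
      (fun a => a' ∈ N a) ?_ ?_ ?_ X ?_ ?_ b0
    · have h2 : X b0 = x ⟨(a', b0), hp0⟩ := dif_pos hp0
      rw [← h2, h1]
      rfl
    · intro a _ S' hS'
      refine (hrow a S' (fun b hb => (Finset.mem_filter.1 (hS' hb)).2)).trans
        (Finset.card_le_card fun b' hb' => ?_)
      obtain ⟨_, h3, h4⟩ := Finset.mem_filter.1 hb'
      exact Finset.mem_filter.2 ⟨Finset.mem_filter.2 ⟨Finset.mem_univ _, h3⟩, h4⟩
    · intro b hb
      obtain ⟨a, ha1, ha2⟩ := hal a' b (Finset.mem_filter.1 hb).2
      exact ⟨a, ha1, Finset.mem_filter.2 ⟨Finset.mem_univ _, ha2⟩⟩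
    · intro a b b' ha hb hb' hbA
      have h3 := hcross a a' b b' ha hb (Finset.mem_filter.1 hb').2 (Finset.mem_filter.1 hbA).2
      exact ⟨Finset.mem_filter.2 ⟨Finset.mem_univ _, h3.1⟩,
        Finset.mem_filter.2 ⟨Finset.mem_univ _, h3.2⟩⟩
    · intro b hb
      have h3 : (a', b) ∉ al := fun h => hb (Finset.mem_filter.2 ⟨Finset.mem_univ _, h⟩)
      exact dif_neg h3
    · intro b' hb'
      have hd : (a', b') ∈ de := (Finset.mem_filter.1 hb').2
      have h3 := congrFun hx ⟨(a', b'), hd⟩
      rw [Pi.zero_apply] at h3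
      rw [← h3]
      show _ = ∑ p : al, (if a' = p.1.1 then PP N b' p.1.2 else 0) * x p
      symm
      refine Finset.sum_bij_ne_zero (fun p _ _ => p.1.2) (fun _ _ _ => Finset.mem_univ _) ?_ ?_ ?_
      · rintro ⟨⟨a1, b1⟩, hp1⟩ _ hn1 ⟨⟨a2, b2⟩, hp2⟩ _ hn2 h12
        have e1 : a' = a1 := by
          by_contra h
          exact hn1 (by simp [h])
        have e2 : a' = a2 := by
          by_contra h
          exact hn2 (by simp [h])
        have e3 : b1 = b2 := h12
        subst e1 e2 e3
        rfl
      · intro b _ hb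
        by_cases hbA : (a', b) ∈ al
        · refine ⟨⟨(a', b), hbA⟩, Finset.mem_univ _, ?_, rfl⟩
          have h4 : X b = x ⟨(a', b), hbA⟩ := dif_pos hbA
          rw [h4] at hb
          simpa using hb
        · exfalso
          apply hb
          have h4 : X b = 0 := dif_neg hbA
          rw [h4, mul_zero]
      · rintro ⟨⟨a1, b1⟩, hp1⟩ _ hn1
        have e1 : a' = a1 := by
          by_contra h
          exact hn1 (by simp [h])
        subst e1
        have h4 : X b1 = x ⟨(a', b1), hp1⟩ := dif_pos hp1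
        simp [h4]
  · -- injectivity of the transpose of `Mψ`
    intro y hy
    funext q0
    obtain ⟨⟨a0, b'⟩, hq0⟩ := q0
    let Y : V → KK V := fun a => if h : (a, b') ∈ e then y ⟨(a, b'), h⟩ else 0
    have h1 := inj_step N (univ.filter fun a => (a, b') ∈ e) (fun b => univ.filter fun a => (a, b) ∈ G)
      (fun b => univ.filter fun a' => (a', b) ∈ al) (univ.filter fun a' => (a', b') ∈ de)
      (fun b => b' ∈ N b) ?_ ?_ ?_ Y ?_ ?_ a0
    · have h2 : Y a0 = y ⟨(a0, b'), hq0⟩ := dif_pos hq0
      rw [← h2, h1]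
      rfl
    · intro b _ S' hS'
      refine (hcol b S' (fun a ha => (Finset.mem_filter.1 (hS' ha)).2)).trans
        (Finset.card_le_card fun a' ha' => ?_)
      obtain ⟨_, h3, h4⟩ := Finset.mem_filter.1 ha'
      exact Finset.mem_filter.2 ⟨Finset.mem_filter.2 ⟨Finset.mem_univ _, h3⟩, h4⟩
    · intro a ha
      obtain ⟨b, hb1, hb2⟩ := he a b' (Finset.mem_filter.1 ha).2
      exact ⟨b, hb1, Finset.mem_filter.2 ⟨Finset.mem_univ _, hb2⟩⟩
    · intro b a a' hb ha ha' haA
      have h3 := hcross a a' b b' ha hb (Finset.mem_filter.1 haA).2 (Finset.mem_filter.1 ha').2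
      exact ⟨Finset.mem_filter.2 ⟨Finset.mem_univ _, h3.1⟩,
        Finset.mem_filter.2 ⟨Finset.mem_univ _, h3.2⟩⟩
    · intro a ha
      have h3 : (a, b') ∉ e := fun h => ha (Finset.mem_filter.2 ⟨Finset.mem_univ _, h⟩)
      exact dif_neg h3
    · intro a' ha'
      have hd : (a', b') ∈ de := (Finset.mem_filter.1 ha').2
      have h3 := congrFun hy ⟨(a', b'), hd⟩
      rw [Pi.zero_apply] at h3
      rw [← h3]
      show _ = ∑ q : e, (if q.1.2 = b' then PP N a' q.1.1 else 0) * y q
      symm
      refine Finset.sum_bij_ne_zero (fun p _ _ => p.1.1) (fun _ _ _ => Finset.mem_univ _) ?_ ?_ ?_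
      · rintro ⟨⟨a1, b1⟩, hp1⟩ _ hn1 ⟨⟨a2, b2⟩, hp2⟩ _ hn2 h12
        have e1 : b1 = b' := by
          by_contra h
          exact hn1 (by simp [h])
        have e2 : b2 = b' := by
          by_contra h
          exact hn2 (by simp [h])
        have e3 : a1 = a2 := h12
        subst e1 e2 e3
        rfl
      · intro a _ ha
        by_cases haA : (a, b') ∈ e
        · refine ⟨⟨(a, b'), haA⟩, Finset.mem_univ _, ?_, rfl⟩
          have h4 : Y a = y ⟨(a, b'), haA⟩ := dif_pos haA
          rw [h4] at ha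
          simpa using ha
        · exfalso
          apply ha
          have h4 : Y a = 0 := dif_neg haA
          rw [h4, mul_zero]
      · rintro ⟨⟨a1, b1⟩, hp1⟩ _ hn1
        have e1 : b1 = b' := by
          by_contra h
          exact hn1 (by simp [h])
        subst e1
        have h4 : Y a1 = y ⟨(a1, b1), hp1⟩ := dif_pos hp1
        simp [h4]
  · -- the square commutes
    ext ⟨⟨a, b'⟩, hq⟩ ⟨⟨a', b⟩, hp⟩
    rw [Matrix.mul_apply, Matrix.mul_apply]
    have h1 : ∑ g : G, Mω ⟨(a, b'), hq⟩ g * Mχ g ⟨(a', b), hp⟩ =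
        PP N b' b * PP N a' a := by
      by_cases hz : PP N b' b * PP N a' a = 0
      · rw [hz]
        refine Finset.sum_eq_zero fun g _ => ?_
        show (if a = g.1.1 then PP N b' g.1.2 else 0) * (if g.1.2 = b then PP N a' g.1.1 else 0) = 0
        by_cases c1 : a = g.1.1
        · by_cases c2 : g.1.2 = b
          · rw [if_pos c1, if_pos c2, c2, ← c1, hz]
          · rw [if_neg c2, mul_zero]
        · rw [if_neg c1, zero_mul]
      · have hb : b' ∈ N b := PP_ne (left_ne_zero_of_mul hz)
        have ha : a' ∈ N a := PP_ne (right_ne_zero_of_mul hz)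
        have hG := (hcross a a' b b' ha hb hq hp).1
        rw [Finset.sum_eq_single (⟨(a, b), hG⟩ : {x // x ∈ G})]
        · show (if a = a then PP N b' b else 0) * (if b = b then PP N a' a else 0) = _
          rw [if_pos rfl, if_pos rfl]
        · rintro ⟨⟨a1, b1⟩, h5⟩ _ hne
          show (if a = a1 then PP N b' b1 else 0) * (if b1 = b then PP N a' a1 else 0) = 0
          by_cases c1 : a = a1
          · by_cases c2 : b1 = b
            · subst c1 c2
              exact absurd rfl hne
            · rw [if_neg c2, mul_zero]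
          · rw [if_neg c1, zero_mul]
        · intro h
          exact absurd (Finset.mem_univ _) h
    have h2 : ∑ d : de, Mψ ⟨(a, b'), hq⟩ d * Mφ d ⟨(a', b), hp⟩ =
        PP N b' b * PP N a' a := by
      by_cases hz : PP N b' b * PP N a' a = 0
      · rw [hz]
        refine Finset.sum_eq_zero fun d _ => ?_
        show (if b' = d.1.2 then PP N d.1.1 a else 0) * (if d.1.1 = a' then PP N d.1.2 b else 0) = 0
        by_cases c1 : b' = d.1.2
        · by_cases c2 : d.1.1 = a'
          · rw [if_pos c1, if_pos c2, c2, ← c1, mul_comm, hz]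
          · rw [if_neg c2, mul_zero]
        · rw [if_neg c1, zero_mul]
      · have hb : b' ∈ N b := PP_ne (left_ne_zero_of_mul hz)
        have ha : a' ∈ N a := PP_ne (right_ne_zero_of_mul hz)
        have hd := (hcross a a' b b' ha hb hq hp).2
        rw [Finset.sum_eq_single (⟨(a', b'), hd⟩ : {x // x ∈ de})]
        · show (if b' = b' then PP N a' a else 0) * (if a' = a' then PP N b' b else 0) = _
          rw [if_pos rfl, if_pos rfl, mul_comm]
        · rintro ⟨⟨a1, b1⟩, h5⟩ _ hne
          show (if b' = b1 then PP N a1 a else 0) * (if a1 = a' then PP N b1 b else 0) = 0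
          by_cases c1 : b' = b1
          · by_cases c2 : a1 = a'
            · subst c1 c2
              exact absurd rfl hne
            · rw [if_neg c2, mul_zero]
          · rw [if_neg c1, zero_mul]
        · intro h
          exact absurd (Finset.mem_univ _) h
    rw [h1, h2]

end Vale.Agent.P038.H83
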