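import Mathlib

/-!
# P038 (H83): generic matrices and a four-term rank inequality
-/

namespace Vale.Agent.P038.H83

open Finset

universe u

variable {V : Type u} [Fintype V] [DecidableEq V]

/-- The field of rational functions in variables indexed by pairs. -/
abbrev KK (V : Type u) : Type u := FractionRing (MvPolynomial (V × V) ℚ)

/-- The generic matrix with support `t ∈ N s`, over polynomials. -/
noncomputable def P0 (N : V → Finset V) (t s : V) : MvPolynomial (V × V) ℚ :=
  if t ∈ N s then MvPolynomial.X (t, s) else 0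

/-- The generic matrix with support `t ∈ N s`. -/
noncomputable def PP (N : V → Finset V) (t s : V) : KK V :=
  algebraMap (MvPolynomial (V × V) ℚ) (KK V) (P0 N t s)

omit [Fintype V] in
theorem PP_ne {N : V → Finset V} {t s : V} (h : PP N t s ≠ 0) : t ∈ N s := by
  by_contra h1
  apply h
  simp [PP, P0, h1]

theorem generic_inj (N : V → Finset V) (S T : Finset V)
    (hall : ∀ S' ⊆ S, S'.card ≤ (T.filter fun t => ∃ s ∈ S', t ∈ N s).card)
    (x : V → KK V) (hx : ∀ s, s ∉ S → x s = 0) (h0 : ∀ t ∈ T, ∑ s, PP N t s * x s = 0) :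
    ∀ s, x s = 0 := by
  classical
  -- Hall's theorem
  have h1 : ∀ A : Finset {s // s ∈ S}, A.card ≤ (A.biUnion fun s => T.filter fun t => t ∈ N s).card := by
    intro A
    have h2 := hall (A.map (Function.Embedding.subtype _)) (by
      intro s hs
      obtain ⟨a, _, rfl⟩ := Finset.mem_map.1 hs
      exact a.2)
    rw [Finset.card_map] at h2
    refine h2.trans (Finset.card_le_card ?_)
    intro t ht
    obtain ⟨ht1, s, hs, hst⟩ := Finset.mem_filter.1 ht
    obtain ⟨a, ha, rfl⟩ := Finset.mem_map.1 hs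
    exact Finset.mem_biUnion.2 ⟨a, ha, Finset.mem_filter.2 ⟨ht1, hst⟩⟩
  obtain ⟨f, hf, hfT⟩ := (Finset.all_card_le_biUnion_card_iff_exists_injective _).1 h1
  -- the square matrix
  let M0 : Matrix {s // s ∈ S} {s // s ∈ S} (MvPolynomial (V × V) ℚ) := fun i j => P0 N (f i) j
  have hdet : M0.det ≠ 0 := by
    intro hd
    let ev : MvPolynomial (V × V) ℚ →+* ℚ :=
      MvPolynomial.eval (fun p : V × V => if ∃ h : p.2 ∈ S, f ⟨p.2, h⟩ = p.1 then (1 : ℚ) else 0)
    have h2 : ev M0.det = 0 := by rw [hd, map_zero]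
    rw [RingHom.map_det] at h2
    have h3 : ev.mapMatrix M0 = 1 := by
      ext i j
      rw [RingHom.mapMatrix_apply, Matrix.map_apply, Matrix.one_apply]
      show ev (P0 N (f i) j) = _
      unfold P0
      by_cases hij : i = j
      · subst hij
        have h4 : f i ∈ N i := (Finset.mem_filter.1 (hfT i)).2
        rw [if_pos h4, if_pos rfl, MvPolynomial.eval_X]
        rw [if_pos ⟨i.2, rfl⟩]
      · rw [if_neg hij]
        by_cases h4 : f i ∈ N j
        · rw [if_pos h4, MvPolynomial.eval_X]
          rw [if_neg]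
          rintro ⟨h5, h6⟩
          exact hij (hf h6.symm)
        · rw [if_neg h4, map_zero]
    rw [h3, Matrix.det_one] at h2
    exact one_ne_zero h2
  let M : Matrix {s // s ∈ S} {s // s ∈ S} (KK V) :=
    (algebraMap (MvPolynomial (V × V) ℚ) (KK V)).mapMatrix M0
  have hdetM : M.det ≠ 0 := by
    have h2 : M.det = algebraMap (MvPolynomial (V × V) ℚ) (KK V) M0.det :=
      (RingHom.map_det _ _).symm
    rw [h2]
    intro h3
    exact hdet ((IsFractionRing.injective (MvPolynomial (V × V) ℚ) (KK V)) (by rw [h3, map_zero]))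
  have h5 : M.mulVec (fun s => x s) = 0 := by
    funext i
    have h6 := h0 (f i) (Finset.mem_filter.1 (hfT i)).1
    rw [Pi.zero_apply, ← h6]
    show ∑ j : {s // s ∈ S}, PP N (f i) j * x j = _
    rw [Finset.sum_coe_sort S (fun s => PP N (f i) s * x s)]
    refine Finset.sum_subset (Finset.subset_univ S) fun s _ hs => ?_
    rw [hx s hs, mul_zero]
  have h7 := Matrix.eq_zero_of_mulVec_eq_zero hdetM h5
  intro s
  by_cases hs : s ∈ S
  · exact congrFun h7 ⟨s, hs⟩
  · exact hx s hs

end Vale.Agent.P038.H83
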