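import Vale.Agent.P038.H83.Generic

/-!
# P038 (H83): the four-term inequality
-/

namespace Vale.Agent.P038.H83

open Finset

universe u

/-- Rank inequality for a commuting square of matrices. -/
theorem card_le_of_square {K : Type*} [Field K] {al de e G : Type*} [Fintype al] [Fintype de]
    [Fintype e] [Fintype G] [DecidableEq al] [DecidableEq de] [DecidableEq e] [DecidableEq G]
    (Mφ : Matrix de al K) (Mψ : Matrix e de K) (Mχ : Matrix G al K) (Mω : Matrix e G K)
    (hφ : ∀ x, Mφ.mulVec x = 0 → x = 0) (hψ : ∀ y, Mψ.transpose.mulVec y = 0 → y = 0)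
    (hcomm : Mω * Mχ = Mψ * Mφ) :
    Fintype.card e + Fintype.card al ≤ Fintype.card G + Fintype.card de := by
  -- a right inverse of `Mψ`
  have hker : LinearMap.ker Mψ.transpose.mulVecLin = ⊥ := by
    rw [LinearMap.ker_eq_bot']
    intro y hy
    exact hψ y hy
  obtain ⟨g, hg⟩ := LinearMap.exists_leftInverse_of_injective _ hker
  have hg2 : LinearMap.toMatrix' g * Mψ.transpose = 1 := by
    have h1 := congrArg LinearMap.toMatrix' hg
    rw [LinearMap.toMatrix'_comp, LinearMap.toMatrix'_id, ← Matrix.toLin'_apply',
      LinearMap.toMatrix'_toLin'] at h1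
    exact h1
  have hg3 : Mψ * (LinearMap.toMatrix' g).transpose = 1 := by
    have h1 := congrArg Matrix.transpose hg2
    rw [Matrix.transpose_mul, Matrix.transpose_transpose, Matrix.transpose_one] at h1
    exact h1
  set S : Matrix de e K := (LinearMap.toMatrix' g).transpose with hS
  let Ψ : ((e → K) × (al → K)) →ₗ[K] ((G → K) × (de → K)) :=
    { toFun := fun p => (Mχ.mulVec p.2, Mφ.mulVec p.2 + S.mulVec p.1)
      map_add' := by
        intro p q
        ext1
        · simp [Matrix.mulVec_add]
        · simp only [Prod.fst_add, Prod.snd_add, Matrix.mulVec_add]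
          abel
      map_smul' := by
        intro c p
        ext1
        · simp [Matrix.mulVec_smul]
        · simp [Matrix.mulVec_smul] }
  have hinj : Function.Injective Ψ := by
    rw [← LinearMap.ker_eq_bot, LinearMap.ker_eq_bot']
    rintro ⟨y, x⟩ h
    have h1 : Mχ.mulVec x = 0 := congrArg Prod.fst h
    have h2 : Mφ.mulVec x + S.mulVec y = 0 := congrArg Prod.snd h
    have h3 : Mψ.mulVec (Mφ.mulVec x + S.mulVec y) = 0 := by rw [h2, Matrix.mulVec_zero]
    rw [Matrix.mulVec_add, Matrix.mulVec_mulVec, Matrix.mulVec_mulVec, ← hcomm,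
      ← Matrix.mulVec_mulVec, h1, Matrix.mulVec_zero, hg3, Matrix.one_mulVec, zero_add] at h3
    rw [h3, Matrix.mulVec_zero, add_zero] at h2
    rw [hφ x h2, h3]
    rfl
  have h := LinearMap.finrank_le_finrank_of_injective hinj
  rw [Module.finrank_prod, Module.finrank_prod, Module.finrank_fintype_fun_eq_card,
    Module.finrank_fintype_fun_eq_card, Module.finrank_fintype_fun_eq_card,
    Module.finrank_fintype_fun_eq_card] at h
  exact h

end Vale.Agent.P038.H83
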